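import Vale.Agent.P346.Fin

namespace Vale.Agent.Results.P346.Theta

open Finset MvPolynomial

/-- A five-layer circuit. `G0` are the leaves, `G1` the bottom sum gates, `G2` the lower product
gates, `G3` the middle sum gates, `G4` the upper product gates; the output is one more sum gate.
A sum gate has a set of inputs and coefficients, a product gate has input multiplicities. -/
structure Circuit (V K G0 G1 G2 G3 G4 : Type*) where
  leaf : G0 → V ⊕ K
  in1 : G1 → Finset G0
  c1 : G1 → G0 → K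
  m2 : G2 → G1 → ℕ
  in3 : G3 → Finset G2
  c3 : G3 → G2 → K
  m4 : G4 → G3 → ℕ
  in5 : Finset G4
  c5 : G4 → K

namespace Circuit

variable {V K G0 G1 G2 G3 G4 : Type*} [Field K] [Fintype G1] [Fintype G3]
  (C : Circuit V K G0 G1 G2 G3 G4)

noncomputable def v0 (j : G0) : MvPolynomial V K := Sum.elim X MvPolynomial.C (C.leaf j)
noncomputable def v1 (g : G1) : MvPolynomial V K := ∑ j ∈ C.in1 g, C.c1 g j • C.v0 j
noncomputable def v2 (g : G2) : MvPolynomial V K := ∏ j, C.v1 j ^ C.m2 g j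
noncomputable def v3 (g : G3) : MvPolynomial V K := ∑ j ∈ C.in3 g, C.c3 g j • C.v2 j
noncomputable def v4 (g : G4) : MvPolynomial V K := ∏ j, C.v3 j ^ C.m4 g j
/-- The polynomial computed at the output gate. -/
noncomputable def out : MvPolynomial V K := ∑ j ∈ C.in5, C.c5 j • C.v4 j

/-- Syntactic homogeneity: all inputs of a sum gate have the same formal degree, that of the gate. -/
def Homog : Prop := ∃ (d1 : G1 → ℕ) (d3 : G3 → ℕ) (d5 : ℕ),
  (∀ g, ∀ j ∈ C.in1 g, Sum.elim (fun _ => 1) (fun _ => 0) (C.leaf j) = d1 g) ∧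
  (∀ g, ∀ j ∈ C.in3 g, ∑ i, C.m2 j i * d1 i = d3 g) ∧
  ∀ j ∈ C.in5, ∑ i, C.m4 j i * d3 i = d5

end Circuit

/-- The top-left entry of the product of `n` generic `n × n` matrices. -/
noncomputable def IMM (K : Type*) [Field K] (n : ℕ) [NeZero n] :
    MvPolynomial (Fin n × Fin n × Fin n) K :=
  (List.ofFn fun l : Fin n => Matrix.of fun i j : Fin n => X (l, i, j)).prod 0 0

/-- The least number of vertices of a syntactically homogeneous circuit computing `IMM`. -/
noncomputable def s (K : Type*) [Field K] (n : ℕ) [NeZero n] : ℕ :=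
  sInf {m | ∃ (G0 G1 G2 G3 G4 : Type) (_ : Fintype G0) (_ : Fintype G1) (_ : Fintype G2)
    (_ : Fintype G3) (_ : Fintype G4) (C : Circuit (Fin n × Fin n × Fin n) K G0 G1 G2 G3 G4),
    C.Homog ∧ C.out = IMM K n ∧ m = Fintype.card G0 + Fintype.card G1 + Fintype.card G2 +
      Fintype.card G3 + Fintype.card G4 + 1}

open Vale.Agent.P346

theorem hsum {V K ι : Type*} [Field K] (s : Finset ι) (c : ι → K) (f : ι → MvPolynomial V K) {d : ℕ}
    (h : ∀ j ∈ s, (f j).IsHomogeneous d) : (∑ j ∈ s, c j • f j).IsHomogeneous d :=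
  (homogeneousSubmodule V K d).sum_mem fun j hj => (homogeneousSubmodule V K d).smul_mem _ (h j hj)

theorem hprod {V K ι : Type*} [Field K] [Fintype ι] (f : ι → MvPolynomial V K) (m d : ι → ℕ)
    (h : ∀ j, (f j).IsHomogeneous (d j)) : (∏ j, f j ^ m j).IsHomogeneous (∑ j, m j * d j) :=
  IsHomogeneous.prod _ _ _ fun j _ => mul_comm (d j) (m j) ▸ (h j).pow (m j)

theorem IMM_eq (K : Type*) [Field K] (n : ℕ) [NeZero n] : IMM K n = imm K n := path _ _ _ _

theorem low (K : Type*) [Field K] [CharZero K] {n : ℕ} [NeZero n]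
    (ht : Real.exp 416 ≤ (n.sqrt : ℝ)) {G0 G1 G2 G3 G4 : Type} [Fintype G1] [Fintype G2]
    [Fintype G3] [Fintype G4] (C : Circuit (Fin n × Fin n × Fin n) K G0 G1 G2 G3 G4) (hC : C.Homog)
    (ho : C.out = IMM K n) {S : ℝ} (h2 : Fintype.card G2 + 1 ≤ S) (h4 : Fintype.card G4 ≤ S) :
    (n : ℝ) ^ (1 / 512 * √n) ≤ S := by
  classical
  have S0 : 0 ≤ S := (Nat.cast_nonneg _).trans h4
  refine num (Nat.sqrt_le' n) (Nat.lt_succ_sqrt' n) ht S0 fun y hy hyt => ?_
  have hn := Nat.sqrt_le' n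
  generalize n.sqrt = t at *
  have t0 : (417 : ℝ) ≤ t := by linarith [Real.add_one_le_exp (416 : ℝ)]
  have t1 : 81 ≤ t := by exact_mod_cast (by linarith : (81 : ℝ) ≤ t)
  have y0 : 0 < y := by linarith
  obtain ⟨d1, d3, d5, e1, e3, e5⟩ := hC
  rw [IMM_eq] at ho
  have h1 : ∀ g, (C.v1 g).IsHomogeneous (d1 g) := fun g => hsum _ _ _ fun j hj => by
    rw [← e1 g j hj, Circuit.v0]
    cases C.leaf j
    exacts [isHomogeneous_X _ _, isHomogeneous_C _ _]
  have h3 : ∀ g, (C.v3 g).IsHomogeneous (d3 g) := fun g => hsum _ _ _ fun j hj =>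
    e3 g j hj ▸ hprod _ _ _ h1
  have h5 : C.out.IsHomogeneous d5 := hsum _ _ _ fun j hj => e5 j hj ▸ hprod _ _ _ h3
  have A0 : 0 ≤ (y⁻¹ * (1 + 3 / t)) ^ n := by positivity
  have B0 : 0 ≤ (2 * y ^ (-(8 * t : ℤ))) ^ t * (n + 1) := by positivity
  obtain rfl : n = d5 := by
    by_contra hd
    have hi : (imm K n).IsHomogeneous n := by
      refine IsHomogeneous.sum _ _ _ fun v _ => ?_
      simpa using IsHomogeneous.prod univ (fun l => (X (ed v l) : MvPolynomial (V n) K)) (fun _ => 1)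
        fun _ _ => isHomogeneous_X _ _
    have h0 : imm K n = 0 := by
      by_contra h0
      exact hd (hi.inj_right (ho ▸ h5) h0)
    have := measure K hy t1 hyt hn (∅ : Finset Unit) (fun _ => 0) (fun _ => 0) (by simp [h0])
      (G := 0) (by simp) le_rfl
    norm_num at this
  have σ1 : 2 * y ^ (-(8 * t : ℤ)) ≤ 1 := by
    rw [show (8 * t : ℤ) = (8 * t : ℕ) by push_cast; ring, zpow_neg, zpow_natCast,
      ← div_eq_mul_inv, div_le_one (by positivity)]
    refine le_of_pow_le_pow_left₀ two_ne_zero (by positivity) ?_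
    rw [← pow_mul, show 8 * t * 2 = 16 * t by ring, hyt]; linarith
  have key : ∀ j : G4, ∃ (c : Option G2 → K) (f : Option G2 → MvPolynomial (V n) K), j ∈ C.in5 →
      C.v4 j = ∑ x, c x • f x ∧ ∀ x, c x ≠ 0 → f x ≠ 0 → ∃ (ι : Type) (_ : Fintype ι)
      (Q : ι → MvPolynomial (V n) K) (e : ι → ℕ), f x = ∏ i, Q i ∧ (∀ i, (Q i).IsHomogeneous (e i)) ∧
      ∑ i, e i = n ∧ ∏ i, g y (8 * t + 4) (8 * t) (e i) ≤
        (y⁻¹ * (1 + 3 / t)) ^ n + (2 * y ^ (-(8 * t : ℤ))) ^ t * (n + 1) := fun j => by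
    by_cases hA : ∀ i, C.m4 j i ≠ 0 → d3 i < t
    · refine ⟨fun x => if x = none then 1 else 0, fun _ => C.v4 j, fun hj => ⟨by simp, fun x _ _ =>
        ⟨Σ i, Fin (C.m4 j i), inferInstance, fun i => C.v3 i.1, fun i => d3 i.1,
          by simp [Circuit.v4, Fintype.prod_sigma], fun i => h3 _, ?_, ?_⟩⟩⟩
      · simpa [Fintype.sum_sigma] using e5 j hj
      · refine (prod_le_prod (fun _ _ => g_nonneg hy _ _ _) fun i _ =>
          g_small hy t1 hyt (hA i.1 i.2.pos.ne')).trans ?_
        rw [prod_pow_eq_pow_sum, show ∑ i : Σ i, Fin (C.m4 j i), d3 i.1 = n by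
          simpa [Fintype.sum_sigma] using e5 j hj]
        linarith
    · push Not at hA
      obtain ⟨i0, m0, hi0⟩ := hA
      obtain ⟨m, hm⟩ : ∃ m : G3 → ℕ, ∀ i, C.m4 j i = m i + if i = i0 then 1 else 0 :=
        ⟨fun i => C.m4 j i - if i = i0 then 1 else 0, fun i => by
          by_cases h : i = i0
          · subst h; simp only [if_true]; omega
          · simp [h]⟩
      refine ⟨fun x => x.elim 0 fun k => if k ∈ C.in3 i0 then C.c3 i0 k else 0,
        fun x => x.elim 0 fun k => (∏ i, C.v3 i ^ m i) * C.v2 k, fun hj => ⟨?_, ?_⟩⟩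
      · have : C.v4 j = (∏ i, C.v3 i ^ m i) * C.v3 i0 := by
          simp only [Circuit.v4, hm, pow_add, prod_mul_distrib]
          simp
        rw [this, Circuit.v3, mul_sum]
        simp [Fintype.sum_option]
      rintro (_ | k) hc hf
      · simp at hc
      have hk : k ∈ C.in3 i0 := by
        by_contra h
        simp [h] at hc
      have a1 : ∑ i : Σ i, Fin (C.m2 k i), d1 i.1 = d3 i0 := by
        simpa [Fintype.sum_sigma] using e3 i0 k hk
      have a2 : ∑ i, m i * d3 i + d3 i0 = n := by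
        simpa [hm, add_mul, sum_add_distrib] using e5 j hj
      refine ⟨Option (Σ i, Fin (C.m2 k i)), inferInstance,
        fun x => x.elim (∏ i, C.v3 i ^ m i) fun i => C.v1 i.1,
        fun x => x.elim (∑ i, m i * d3 i) fun i => d1 i.1,
        by simp [Circuit.v2, Fintype.prod_option, Fintype.prod_sigma], ?_,
        by simp only [Fintype.sum_option, Option.elim, a1, a2], ?_⟩
      · rintro (_ | i)
        exacts [hprod _ _ _ h3, h1 _]
      · simp only [Fintype.prod_option, Option.elim]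
        refine le_add_of_nonneg_of_le A0 ((mul_comm _ _).trans_le (mul_le_mul ?_
          ((g_triv hy _ _ _).trans ?_) (g_nonneg hy _ _ _) (by positivity)))
        · refine (prod_le_prod (fun _ _ => g_nonneg hy _ _ _) fun i _ => g_one hy t _ ?_).trans ?_
          · by_contra h
            refine hf (mul_eq_zero_of_right _ (prod_eq_zero (mem_univ i.1) ?_))
            rw [Circuit.v1, sum_eq_zero fun j hj => ?_, zero_pow i.2.pos.ne']
            have := e1 _ j hj
            cases hl : C.leaf j <;> simp [hl] at this <;> omega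
          · rw [prod_pow_eq_pow_sum, a1]
            exact pow_le_pow_of_le_one (by positivity) σ1 hi0
        · exact_mod_cast (by omega : ∑ i, m i * d3 i + 1 ≤ n + 1)
  choose c f key using key
  refine (measure K hy t1 hyt hn (C.in5 ×ˢ (univ : Finset (Option G2)))
    (fun x => C.c5 x.1 * c x.1 x.2) (fun x => f x.1 x.2) ?_
    (fun x hx h1 h2 => (key x.1 (mem_product.1 hx).1).2 x.2 (right_ne_zero_of_mul h1) h2)
    (add_nonneg A0 B0)).trans ?_
  · rw [← ho, Circuit.out, sum_product]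
    exact sum_congr rfl fun j hj => by simp [(key j hj).1, smul_sum, mul_smul]
  · refine mul_le_mul_of_nonneg_right (mul_le_mul_of_nonneg_right ?_ (add_nonneg A0 B0))
      (by positivity)
    rw [card_product, card_univ, Fintype.card_option, sq]
    push_cast
    exact mul_le_mul ((Nat.cast_le.2 (card_le_univ _)).trans h4) h2 (by positivity) S0

theorem upp (K : Type*) [Field K] (n t : ℕ) [NeZero n] (h : n ≤ t * t) :
    ∃ C : Circuit (Fin n × Fin n × Fin n) K (Option (Fin n × Fin n × Fin n))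
      (Fin t × Fin t × Fin n × Fin n) (Fin t × (Fin (t + 1) → Fin n)) (Fin t × Fin n × Fin n)
      (Fin (t + 1) → Fin n), C.Homog ∧ C.out = IMM K n := by
  let C : Circuit (Fin n × Fin n × Fin n) K (Option (Fin n × Fin n × Fin n))
      (Fin t × Fin t × Fin n × Fin n) (Fin t × (Fin (t + 1) → Fin n)) (Fin t × Fin n × Fin n)
      (Fin (t + 1) → Fin n) :=
    { leaf := fun x => x.elim (Sum.inr 1) Sum.inl
      in1 := fun x => if h : x.1 * t + x.2.1 < n then {some (⟨_, h⟩, x.2.2)} else {none}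
      c1 := fun x _ => if x.1 * t + x.2.1 < n then 1 else if x.2.2.1 = x.2.2.2 then 1 else 0
      m2 := fun k x => if x.1 = k.1 then
        if x.2.2 = (k.2 x.2.1.castSucc, k.2 x.2.1.succ) then 1 else 0 else 0
      in3 := fun x => (univ.filter fun v => v 0 = x.2.1 ∧ v (Fin.last t) = x.2.2).map
        ⟨fun v => (x.1, v), Prod.mk_right_injective _⟩
      c3 := fun _ _ => 1
      m4 := fun u x => if x.2 = (u x.1.castSucc, u x.1.succ) then 1 else 0
      in5 := univ.filter fun v => v 0 = 0 ∧ v (Fin.last t) = 0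
      c5 := fun _ => 1 }
  refine ⟨C, ⟨fun x => if x.1 * t + x.2.1 < n then 1 else 0,
    fun x => ∑ r : Fin t, if x.1 * t + r < n then 1 else 0,
    ∑ b : Fin t, ∑ r : Fin t, if b * t + r < n then 1 else 0, fun x j hj => ?_, fun x j hj => ?_,
    fun u _ => ?_⟩, ?_⟩
  · by_cases h : x.1 * t + x.2.1 < n <;> simp [C, h] at hj <;> simp [C, h, hj]
  · obtain ⟨v, -, rfl⟩ := mem_map.1 hj
    rw [Fintype.sum_prod_type, sum_eq_single x.1 (fun b _ hb => by simp [C, hb]) (by simp),
      Fintype.sum_prod_type]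
    simp only [C, Function.Embedding.coeFn_mk, if_true, ite_mul, one_mul, zero_mul, sum_ite_eq',
      mem_univ]
  · rw [Fintype.sum_prod_type]
    simp only [C, if_true, ite_mul, one_mul, zero_mul, sum_ite_eq', mem_univ]
  let M : ℕ → Matrix (Fin n) (Fin n) (MvPolynomial (Fin n × Fin n × Fin n) K) := fun l =>
    if h : l < n then Matrix.of fun i j => X (⟨l, h⟩, i, j) else 1
  have h1 : ∀ x, C.v1 x = M (x.1 * t + x.2.1) x.2.2.1 x.2.2.2 := fun x => by
    by_cases h : x.1 * t + x.2.1 < n <;> simp [C, M, h, Circuit.v1, Circuit.v0, Matrix.one_apply]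
  have h2 : ∀ k, C.v2 k = ∏ r : Fin t, M (k.1 * t + r) (k.2 r.castSucc) (k.2 r.succ) := fun k => by
    rw [Circuit.v2, Fintype.prod_prod_type,
      prod_eq_single k.1 (fun b _ hb => by simp [C, hb]) (by simp), Fintype.prod_prod_type]
    simp only [h1]
    simp only [C, if_true, pow_ite, pow_one, pow_zero, prod_ite_eq', mem_univ]
  have h3 : ∀ x, C.v3 x = (List.ofFn fun r : Fin t => M (x.1 * t + r)).prod x.2.1 x.2.2 := fun x => by
    rw [path, Circuit.v3]
    simp only [h2]
    simp only [C, sum_map, one_smul, Function.Embedding.coeFn_mk]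
  have h4 : ∀ u, C.v4 u = ∏ b : Fin t,
      (List.ofFn fun r : Fin t => M (b * t + r)).prod (u b.castSucc) (u b.succ) := fun u => by
    rw [Circuit.v4, Fintype.prod_prod_type]
    simp only [h3]
    simp only [C, if_true, pow_ite, pow_one, pow_zero, prod_ite_eq', mem_univ]
  have h5 := congrFun₂ ((blocks M t t).trans (pad M h fun l hl => dif_neg hl.not_gt)) 0 0
  rw [path, ← ofFn_range] at h5
  simp only [Circuit.out, h4]
  simp only [C, one_smul]
  rw [h5, IMM]
  simp [M]

theorem result : ∃ c C : ℝ, 0 < c ∧ ∃ n₀ : ℕ, ∀ (K : Type*) [Field K] [CharZero K] (n : ℕ)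
    [NeZero n], n₀ ≤ n → (n : ℝ) ^ (c * √n) ≤ s K n ∧ (s K n : ℝ) ≤ (n : ℝ) ^ (C * √n) := by
  refine ⟨1 / 512, 2, by norm_num, ⌈Real.exp 416⌉₊ ^ 2, fun K _ _ n _ hn => ?_⟩
  have ht : Real.exp 416 ≤ (n.sqrt : ℝ) := Nat.ceil_le.1 (Nat.le_sqrt'.2 hn)
  have t1 : 417 ≤ n.sqrt := by
    exact_mod_cast (by linarith [Real.add_one_le_exp (416 : ℝ)] : (417 : ℝ) ≤ n.sqrt)
  obtain ⟨C, c1, c2⟩ := upp K n (n.sqrt + 1) (Nat.lt_succ_sqrt n).le
  constructor
  · obtain ⟨G0, G1, G2, G3, G4, _, _, _, _, _, D, d1, d2, d3⟩ : s K n ∈ _ :=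
      Nat.sInf_mem ⟨_, _, _, _, _, _, inferInstance, inferInstance, inferInstance, inferInstance,
        inferInstance, C, c1, c2, rfl⟩
    refine low K ht D d1 d2 ?_ ?_ <;> norm_cast <;> omega
  · refine (Nat.cast_le.2 (show s K n ≤ _ from Nat.sInf_le ⟨_, _, _, _, _, inferInstance,
      inferInstance, inferInstance, inferInstance, inferInstance, C, c1, c2, rfl⟩)).trans ?_
    have hs := Nat.sqrt_le n
    have n1 : n.sqrt + 1 ≤ n := by nlinarith
    refine le_trans (b := ((n ^ (2 * n.sqrt) : ℕ) : ℝ)) (Nat.cast_le.2 ?_) ?_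
    · simp only [Fintype.card_prod, Fintype.card_option, Fintype.card_fun, Fintype.card_fin]
      generalize n.sqrt = t at *
      have p : ∀ {a b : ℕ}, a ≤ b → n ^ a ≤ n ^ b := Nat.pow_le_pow_right (by omega)
      have a0 : 1 ≤ n ^ (t + 3) := Nat.one_le_pow _ _ (by omega)
      have a1 : n * (n * n) ≤ n ^ (t + 3) := (show _ = n ^ 3 by ring).trans_le (p (by omega))
      have a2 : (t + 1) * ((t + 1) * (n * n)) ≤ n ^ (t + 3) :=
        (show _ ≤ n * (n * (n * n)) by gcongr).trans
          ((show _ = n ^ 4 by ring).trans_le (p (by omega)))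
      have a3 : (t + 1) * n ^ (t + 1 + 1) ≤ n ^ (t + 3) :=
        (Nat.mul_le_mul_right _ n1).trans_eq (by ring)
      have a4 : (t + 1) * (n * n) ≤ n ^ (t + 3) := (Nat.mul_le_mul_right _ n1).trans a1
      have a5 := p (show t + 1 + 1 ≤ t + 3 by omega)
      have a6 : 7 * n ^ (t + 3) ≤ n ^ (2 * t) :=
        (Nat.mul_le_mul_right _ (by omega : 7 ≤ n)).trans
          ((show _ = n ^ (t + 4) by ring).trans_le (p (by omega)))
      omega
    · rw [Nat.cast_pow, ← Real.rpow_natCast]
      refine Real.rpow_le_rpow_of_exponent_le (by exact_mod_cast (by omega : 1 ≤ n)) ?_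
      push_cast
      linarith [Real.nat_sqrt_le_real_sqrt (a := n)]

end Vale.Agent.Results.P346.Theta
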